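import Crest.Agent.R096.Cb6_609
import Crest.Agent.R105.Iod1_690
import Crest.Agent.X212.Srf12.Defs
import Crest.Agent.X212.Lad50.PL

-- ▼ part X212/Ann83/Sq
section

/-!
# X212 / Ann83 (helper83), part 1: the complement of a disc in the interior of a disc is the union of two squares
-/

set_option autoImplicit false
set_option linter.unusedSectionVars false

open Set Metric Topology

namespace Crest.Agent.X212.Ann83

open Crest.Agent.R096 Crest.Agent.R096.Ce_537 Crest.Agent.R096.Cb_609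

variable {E F : Type*} [NormedAddCommGroup E] [NormedSpace ℝ E] [NormedAddCommGroup F]
  [NormedSpace ℝ F]

/-- the model arc -/
abbrev II : Set ℝ := Icc (-1) 1

theorem mI : (-1 : ℝ) ∈ II := ⟨le_rfl, by norm_num⟩
theorem pI : (1 : ℝ) ∈ II := ⟨by norm_num, le_rfl⟩
theorem negI {x : ℝ} (h : x ∈ II) : -x ∈ II := ⟨by linarith [h.2], by linarith [h.1]⟩

theorem isBall_I : IsBall 1 II {-1, 1} := by
  have := isBall_segment (a := (-1 : ℝ)) (b := 1) (by norm_num)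
  rwa [segment_eq_Icc (by norm_num)] at this

theorem plOn_lin [FiniteDimensional ℝ E] (L : E →ₗ[ℝ] F) (c : F) (K : Set E) :
    PLOn (fun x => L x + c) K :=
  plOn_affine (L.toAffineMap + AffineMap.const ℝ E c) K

/-- the reflection of the model arc -/
def rv : PLEquiv II II :=
  ⟨fun x => -x, fun x => -x, by simpa using plOn_lin (-LinearMap.id : ℝ →ₗ[ℝ] ℝ) 0 II,
    by simpa using plOn_lin (-LinearMap.id : ℝ →ₗ[ℝ] ℝ) 0 II, fun _ => negI, fun _ => negI,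
    fun x _ => neg_neg x, fun x _ => neg_neg x⟩

theorem arc_param {A : Set E} {p q : E} (h : IsBall 1 A {p, q}) :
    ∃ e : PLEquiv II A, e.f (-1) = p ∧ e.f 1 = q := by
  obtain ⟨e, he, -⟩ := isBall_I.exists_equiv h
  rw [image_pair] at he
  rcases pair_eq_pair_iff.1 he with ⟨h1, h2⟩ | ⟨h1, h2⟩
  · exact ⟨e, h1, h2⟩
  · exact ⟨rv.trans e, by simpa [PLEquiv.trans, rv] using h2, h1⟩

theorem glue_pt {A₁ A₂ : Set E} {B₁ B₂ : Set F} (e₁ : PLEquiv A₁ B₁) (e₂ : PLEquiv A₂ B₂)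
    (c₁ : IsCompact A₁) (c₂ : IsCompact A₂) {x : E} {y : F} (hA : A₁ ∩ A₂ = {x}) (hB : B₁ ∩ B₂ = {y})
    (h₁ : e₁.f x = y) (h₂ : e₂.f x = y) :
    ∃ e : PLEquiv (A₁ ∪ A₂) (B₁ ∪ B₂), EqOn e.f e₁.f A₁ ∧ EqOn e.f e₂.f A₂ := by
  have hx : x ∈ A₁ ∩ A₂ := hA ▸ mem_singleton x
  have hf : EqOn e₁.f e₂.f (A₁ ∩ A₂) := by
    rw [hA]
    rintro _ rfl
    exact h₁.trans h₂.symm
  have hg : EqOn e₁.g e₂.g (B₁ ∩ B₂) := eqOn_g_of_f e₁ e₂ hf (by
    rw [hB]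
    rintro _ rfl
    rw [← h₁, e₁.li x hx.1]
    exact hx.2)
  have d₁ : IsClosed B₁ := e₁.image_eq ▸ (c₁.image_of_continuousOn e₁.pf.1).isClosed
  have d₂ : IsClosed B₂ := e₂.image_eq ▸ (c₂.image_of_continuousOn e₂.pf.1).isClosed
  exact ⟨glue e₁ e₂ c₁.isClosed c₂.isClosed d₁ d₂ hf hg, glue_f₁ _ _ _ _ _ _ _ _, glue_f₂ _ _ _ _ _ _ _ _⟩

/-- horizontal side -/
def hz (c : ℝ) (s : Set ℝ := II) : PLEquiv (s ×ˢ {c}) s :=
  ⟨Prod.fst, fun x => (x, c), by simpa using plOn_lin (LinearMap.fst ℝ ℝ ℝ) 0 _,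
    by simpa using plOn_lin (LinearMap.inl ℝ ℝ ℝ) (0, c) s, fun _ h => h.1, fun _ h => ⟨h, rfl⟩,
    fun _ h => Prod.ext rfl h.2.symm, fun _ _ => rfl⟩

/-- vertical side -/
def vt (c : ℝ) : PLEquiv ({c} ×ˢ II) II :=
  ⟨Prod.snd, fun x => (c, x), by simpa using plOn_lin (LinearMap.snd ℝ ℝ ℝ) 0 _,
    by simpa using plOn_lin (LinearMap.inr ℝ ℝ ℝ) (c, 0) II, fun _ h => h.2, fun _ h => ⟨rfl, h⟩,
    fun _ h => Prod.ext h.1.symm rfl, fun _ _ => rfl⟩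

theorem isBall_hz (c : ℝ) : IsBall 1 (II ×ˢ {c}) {((-1 : ℝ), c), (1, c)} := by
  have := isBall_I.map (hz c).symm
  rwa [image_pair] at this

theorem isBall_vt (c : ℝ) : IsBall 1 ({c} ×ˢ II) {(c, (-1 : ℝ)), (c, 1)} := by
  have := isBall_I.map (vt c).symm
  rwa [image_pair] at this

theorem sq_i1 : (II ×ˢ {(-1 : ℝ)}) ∩ ({(1 : ℝ)} ×ˢ II) = {((1 : ℝ), (-1 : ℝ))} := by
  ext ⟨x, y⟩
  simp only [mem_inter_iff, mem_prod, mem_singleton_iff, Prod.mk.injEq]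
  constructor
  · exact fun h => ⟨h.2.1, h.1.2⟩
  · rintro ⟨rfl, rfl⟩
    exact ⟨⟨pI, rfl⟩, rfl, mI⟩

theorem sq_i2 : (II ×ˢ {(-1 : ℝ)} ∪ {(1 : ℝ)} ×ˢ II) ∩ (II ×ˢ {(1 : ℝ)}) = {((1 : ℝ), (1 : ℝ))} := by
  ext ⟨x, y⟩
  simp only [mem_inter_iff, mem_union, mem_prod, mem_singleton_iff, Prod.mk.injEq]
  constructor
  · rintro ⟨h | h, -, rfl⟩
    · norm_num at h
    · exact ⟨h.1, rfl⟩
  · rintro ⟨rfl, rfl⟩
    exact ⟨Or.inr ⟨rfl, pI⟩, pI, rfl⟩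

theorem ballPair_sq : BallPair 1 (II ×ˢ II) (II ×ˢ {(-1 : ℝ)} ∪ {(1 : ℝ)} ×ˢ II ∪ II ×ˢ {(1 : ℝ)})
    ({(-1 : ℝ)} ×ˢ II) {((-1 : ℝ), (-1 : ℝ)), (-1, 1)} where
  ball := by
    convert isBall_I.prod isBall_I using 1
    ext ⟨x, y⟩
    simp only [mem_union, mem_prod, mem_singleton_iff, mem_insert_iff]
    tauto
  ball₁ := arc_glue (arc_glue (isBall_hz _) (isBall_vt _) sq_i1) (pair_comm _ _ ▸ isBall_hz 1) sq_i2
  ball₂ := isBall_vt _
  inter := by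
    ext ⟨x, y⟩
    simp only [mem_inter_iff, mem_union, mem_prod, mem_singleton_iff, mem_insert_iff, Prod.mk.injEq]
    constructor
    · rintro ⟨(h | h) | h, rfl, -⟩
      · exact Or.inl ⟨rfl, h.2⟩
      · norm_num at h
      · exact Or.inr ⟨rfl, h.2⟩
    · rintro (⟨rfl, rfl⟩ | ⟨rfl, rfl⟩)
      · exact ⟨Or.inl (Or.inl ⟨mI, rfl⟩), rfl, mI⟩
      · exact ⟨Or.inr ⟨mI, rfl⟩, rfl, pI⟩

/-- a disc with four marked sides is a square, two opposite sides being parametrised in advance -/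
theorem square {K b m t l : Set E} (β : PLEquiv II b) (τ : PLEquiv II t)
    (h : BallPair 1 K (b ∪ m ∪ t) l {β.f (-1), τ.f (-1)}) (hm : IsBall 1 m {β.f 1, τ.f 1})
    (i1 : b ∩ m = {β.f 1}) (i2 : (b ∪ m) ∩ t = {τ.f 1}) :
    ∃ e : PLEquiv (II ×ˢ II) K, (∀ x ∈ II, e.f (x, -1) = β.f x) ∧ (∀ x ∈ II, e.f (x, 1) = τ.f x) ∧
      e.f '' ({1} ×ˢ II) = m ∧ e.f '' ({-1} ×ˢ II) = l := by
  obtain ⟨μ, m1, m2⟩ := arc_param hm
  obtain ⟨e₁, a1, a2⟩ := glue_pt ((hz (-1)).trans β) ((vt 1).trans μ) (isBall_hz _).isCompact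
    (isBall_vt _).isCompact sq_i1 i1 rfl m1
  obtain ⟨e₂, a3, a4⟩ := glue_pt e₁ ((hz 1).trans τ)
    ((isBall_hz _).isCompact.union (isBall_vt _).isCompact) (isBall_hz _).isCompact sq_i2 i2
    ((a2 (mk_mem_prod rfl pI)).trans m2) rfl
  have b1 : ∀ x ∈ II, e₂.f (x, -1) = β.f x := fun x hx =>
    (a3 (Or.inl (mk_mem_prod hx rfl))).trans (a1 (mk_mem_prod hx rfl))
  have b2 : ∀ x ∈ II, e₂.f (x, 1) = τ.f x := fun x hx => a4 (mk_mem_prod hx rfl)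
  obtain ⟨e, c1, -, c2⟩ := ballPair_sq.extend h e₂ (by rw [image_pair, b1 _ mI, b2 _ mI])
  refine ⟨e, fun x hx => (c1 (Or.inl (Or.inl (mk_mem_prod hx rfl)))).trans (b1 x hx),
    fun x hx => (c1 (Or.inr (mk_mem_prod hx rfl))).trans (b2 x hx), ?_, c2⟩
  rw [← ((vt 1).trans μ).image_eq]
  exact image_congr fun x hx => (c1 (Or.inl (Or.inr hx))).trans ((a3 (Or.inr hx)).trans (a2 hx))

/-- a ball that meets the common part of two closed sets only in its boundary lies in one of them -/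
theorem side {k : ℕ} {D G X Y : Set E} (hD : IsBall k D G) (hX : IsClosed X) (hY : IsClosed Y)
    (hc : D ⊆ X ∪ Y) (hi : D ∩ (X ∩ Y) ⊆ G) : D ⊆ X ∨ D ⊆ Y := by
  have := isPreconnected_iff_subset_of_disjoint_closed.1 hD.isPreconnected_diff X Y hX hY
    (sdiff_subset.trans hc) (eq_empty_of_forall_notMem fun x hx => hx.1.2 (hi ⟨hx.1.1, hx.2⟩))
  rw [← hD.closure_diff]
  exact this.imp (closure_minimal · hX) (closure_minimal · hY)

theorem cut_side {k : ℕ} {K S A D G : Set E} {p q : E} (hK : IsBall 2 K S) (hA : IsBall 1 A {p, q})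
    (hAK : A ⊆ K) (hAS : A ∩ S = {p, q}) (hD : IsBall k D G) (hDK : D ⊆ K) (hi : D ∩ A ⊆ G) :
    ∃ K₁ K₂ S₁ S₂, BallPair 1 K S₁ S₂ {p, q} ∧ S₁ ∪ S₂ = S ∧ BallPair 1 K₁ A S₁ {p, q} ∧
      BallPair 1 K₂ A S₂ {p, q} ∧ K₁ ∪ K₂ = K ∧ K₁ ∩ K₂ = A ∧ D ⊆ K₂ := by
  obtain ⟨K₁, K₂, S₁, S₂, h1, h2, h3, h4, h5, h6⟩ := cut_disc hK hA hAK hAS
  rcases side hD h3.ball.isClosed h4.ball.isClosed (h5 ▸ hDK) (h6 ▸ hi) with h | h
  · exact ⟨K₂, K₁, S₂, S₁, h1.symm, by rwa [union_comm], h4, h3, by rwa [union_comm],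
      by rwa [inter_comm], h⟩
  · exact ⟨K₁, K₂, S₁, S₂, h1, h2, h3, h4, h5, h6, h⟩

/-- two squares glued to an annulus with boundary circles `G₁`, `G₂` -/
structure TwoSq (S G₁ G₂ : Set E) (h k : ℝ × ℝ → E) : Prop where
  ph : PLOn h (II ×ˢ II)
  pk : PLOn k (II ×ˢ II)
  ih : InjOn h (II ×ˢ II)
  ik : InjOn k (II ×ˢ II)
  up : ∀ x ∈ II, h (x, 1) = k (x, -1)
  dn : ∀ x ∈ II, k (x, 1) = h (x, -1)
  fib : ∀ z ∈ II ×ˢ II, ∀ w ∈ II ×ˢ II, h z = k w → z.2 = 1 ∨ z.2 = -1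
  im : h '' (II ×ˢ II) ∪ k '' (II ×ˢ II) = S
  lf : h '' ({-1} ×ˢ II) ∪ k '' ({-1} ×ˢ II) = G₁
  rt : h '' ({1} ×ˢ II) ∪ k '' ({1} ×ˢ II) = G₂

theorem twoSq_of_arcs {B G₁ D G a a' : Set E} (hB : IsBall 2 B G₁) (hD : IsBall 2 D G) (hDB : D ⊆ B)
    (hd : Disjoint D G₁) (α : PLEquiv II a) (α' : PLEquiv II a') (ha : a ⊆ B) (ha' : a' ⊆ B)
    (i1 : a ∩ D = {α.f 1}) (i1' : a' ∩ D = {α'.f 1}) (hp : α.f 1 ∈ G) (hp' : α'.f 1 ∈ G)
    (i2 : a ∩ G₁ = {α.f (-1)}) (i2' : a' ∩ G₁ = {α'.f (-1)}) (hdis : Disjoint a a') :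
    ∃ h k, TwoSq (B \ (D \ G)) G₁ G h k := by
  set p := α.f 1 with ep
  set p' := α'.f 1 with ep'
  set q := α.f (-1) with eq
  set q' := α'.f (-1) with eq'
  have b1 : IsBall 1 a {q, p} := image_pair _ _ _ ▸ isBall_I.map α
  have b2 : IsBall 1 a' {q', p'} := image_pair _ _ _ ▸ isBall_I.map α'
  have pa : p ∈ a := α.mf pI
  have pa' : p' ∈ a' := α'.mf pI
  have qa : q ∈ a := α.mf mI
  have qa' : q' ∈ a' := α'.mf mI
  have dd := disjoint_left.1 hdis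
  have dG := disjoint_left.1 hd
  have m1 : ∀ x ∈ a, x ∈ D → x = p := fun x h h' => mem_singleton_iff.1 (i1 ▸ ⟨h, h'⟩)
  have m1' : ∀ x ∈ a', x ∈ D → x = p' := fun x h h' => mem_singleton_iff.1 (i1' ▸ ⟨h, h'⟩)
  have m2 : ∀ x ∈ a, x ∈ G₁ → x = q := fun x h h' => mem_singleton_iff.1 (i2 ▸ ⟨h, h'⟩)
  have m2' : ∀ x ∈ a', x ∈ G₁ → x = q' := fun x h h' => mem_singleton_iff.1 (i2' ▸ ⟨h, h'⟩)
  have qG : q ∈ G₁ := (i2.ge rfl).2
  have qG' : q' ∈ G₁ := (i2'.ge rfl).2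
  obtain ⟨A₀, A₀', t0, t0'⟩ := two_marks hD hp hp' fun h => dd pa (h ▸ pa')
  -- the first cut
  have j1 : ∀ {A : Set E}, IsBall 1 A {p, p'} → A ⊆ D → a ∩ A = {p} ∧ (a ∪ A) ∩ a' = {p'} :=
    fun {A} h hs => ⟨Subset.antisymm (fun x hx => m1 x hx.1 (hs hx.2))
      (singleton_subset_iff.2 ⟨pa, h.subset (by simp)⟩), Subset.antisymm (fun x hx =>
        hx.1.elim (fun h' => absurd hx.2 (dd h')) fun h' => m1' x hx.2 (hs h'))
      (singleton_subset_iff.2 ⟨Or.inr (h.subset (by simp)), pa'⟩)⟩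
  obtain ⟨j2, j3⟩ := j1 t0.ball₁ t0.subset₁
  have AG : A₀ ⊆ G := t0' ▸ subset_union_left
  have AG' : A₀' ⊆ G := t0' ▸ subset_union_right
  obtain ⟨K₁, K₂, S₁, S₂, c1, c2, c3, c4, c5, c6, c7⟩ := cut_side hB
    (arc_glue (arc_glue b1 t0.ball₁ j2) (pair_comm q' p' ▸ b2) j3)
    (union_subset (union_subset ha (t0.subset₁.trans hDB)) ha')
    (Subset.antisymm (by
      rintro x ⟨(h | h) | h, h'⟩
      exacts [Or.inl (m2 x h h'), absurd h' (dG (t0.subset₁ h)), Or.inr (m2' x h h')])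
      (pair_subset ⟨Or.inl (Or.inl qa), qG⟩ ⟨Or.inr qa', qG'⟩)) hD hDB (by
      rintro x ⟨h', (h | h) | h⟩
      exacts [m1 x h h' ▸ hp, AG h, m1' x h h' ▸ hp'])
  have SG : S₂ ⊆ G₁ := c2 ▸ subset_union_right
  -- the second cut
  have pp : ({p, p'} : Set E) ⊆ a ∪ a' := pair_subset (Or.inl pa) (Or.inr pa')
  obtain ⟨L₁, L₂, T₁, T₂, d1, d2, d3, d4, d5, d6, d7⟩ := cut_side c4.ball t0.ball₂
    (t0.subset₂.trans c7) (Subset.antisymm (by
      rintro x ⟨h', ((h | h) | h) | h⟩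
      exacts [Or.inl (m1 x h (t0.subset₂ h')), t0.inter ▸ ⟨h, h'⟩, Or.inr (m1' x h (t0.subset₂ h')),
        absurd (SG h) (dG (t0.subset₂ h'))])
      fun x hx => ⟨t0.ball₂.subset hx, Or.inl (Or.inl (Or.inr (t0.ball₁.subset hx)))⟩) hD c7
      (inter_subset_right.trans AG')
  have e1 : A₀ = T₂ := by
    refine ball_eq_of_subset t0.ball₁ d1.ball₂ ((side t0.ball₁ d1.ball₁.isClosed d1.ball₂.isClosed
      (d2 ▸ fun x hx => Or.inl (Or.inl (Or.inr hx))) (d1.inter ▸ inter_subset_right)).resolve_left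
      fun h => ?_)
    obtain ⟨x, hx, hx'⟩ := t0.ball₁.nonempty_diff
    exact hx' (t0.inter ▸ ⟨hx, d6 ▸ ⟨d3.subset₂ (h hx), d7 (t0.subset₁ hx)⟩⟩)
  subst e1
  obtain rfl : D = L₂ := ball_eq_of_subset hD (by rw [← t0', union_comm]; exact d4.ball) d7
  have k1 : a' ∩ S₂ = {q'} := Subset.antisymm (fun x hx => m2' x hx.1 (SG hx.2))
    (singleton_subset_iff.2 ⟨qa', c1.ball₂.subset (by simp)⟩)
  have k2 : (a' ∪ S₂) ∩ a = {q} := Subset.antisymm (fun x hx =>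
      hx.1.elim (fun h' => absurd h' (dd hx.2)) fun h' => m2 x hx.2 (SG h'))
    (singleton_subset_iff.2 ⟨Or.inr (c1.ball₂.subset (by simp)), qa⟩)
  have k3 : IsBall 1 S₂ {q', q} := pair_comm q q' ▸ c1.ball₂
  have e2 : a' ∪ S₂ ∪ a = T₁ := by
    refine ball_eq_of_subset (arc_glue (arc_glue (pair_comm q' p' ▸ b2) k3 k1) b1 k2)
      (pair_comm p p' ▸ d1.ball₁) fun x hx => ?_
    have : x ∈ T₁ ∪ A₀ := by
      rw [d2]
      rcases hx with (h | h) | h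
      exacts [Or.inl (Or.inr h), Or.inr h, Or.inl (Or.inl (Or.inl h))]
    refine this.elim id fun h' => d1.ball₁.subset ?_
    rcases hx with (h | h) | h
    exacts [Or.inr (m1' x h (t0.subset₁ h')), absurd (SG h) (dG (t0.subset₁ h')),
      Or.inl (m1 x h (t0.subset₁ h'))]
  subst e2
  obtain ⟨e, f1, f2, f3, f4⟩ := square α α' c3 t0.ball₁ j2 j3
  obtain ⟨e', g1, g2, g3, g4⟩ := square (K := L₁) (m := S₂) (l := A₀') (rv.trans α') (rv.trans α)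
    (by simpa only [PLEquiv.trans, rv, neg_neg, ← ep, ← ep', pair_comm p' p] using d3.symm) k3 k1 k2
  let ρ : PLEquiv (II ×ˢ II) (II ×ˢ II) := prodEquiv rv (PLEquiv.refl II)
  have ρ1 : ∀ c : ℝ, ρ.f '' ({c} ×ˢ II) = {-c} ×ˢ II := fun c => by
    ext ⟨x, y⟩
    refine ⟨?_, fun h => ⟨(c, y), ⟨rfl, h.2⟩, Prod.ext h.1.symm rfl⟩⟩
    rintro ⟨z, hz, e⟩
    rw [← e]
    exact ⟨congrArg Neg.neg hz.1, hz.2⟩
  have ρ2 : ∀ s, (ρ.trans e').f '' s = e'.f '' (ρ.f '' s) := fun s => (image_image e'.f ρ.f s).symm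
  have KL : ∀ x ∈ K₁, x ∈ L₁ → x ∈ a ∪ a' := fun x h h' => by
    rcases (c6.le ⟨h, d5.le (Or.inl h')⟩) with (h1 | h1) | h1
    exacts [Or.inl h1, pp (t0.inter.le ⟨h1, d6.le ⟨h', t0.subset₁ h1⟩⟩), Or.inr h1]
  refine ⟨e.f, (ρ.trans e').f, e.pf, (ρ.trans e').pf, e.injOn, (ρ.trans e').injOn, fun x hx => ?_,
    fun x hx => ?_, fun z hz w hw h => ?_, ?_, ?_, ?_⟩
  · rw [f2 x hx]
    exact ((g1 _ (negI hx)).trans (congrArg α'.f (neg_neg x))).symm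
  · rw [f1 x hx]
    exact (g2 _ (negI hx)).trans (congrArg α.f (neg_neg x))
  · rcases KL _ (e.mf hz) (h ▸ (ρ.trans e').mf hw) with h1 | h1
    · have := e.injOn hz (x₂ := (_, -1)) ⟨α.mg h1, mI⟩ (by rw [f1 _ (α.mg h1), α.ri _ h1])
      exact Or.inr (congrArg Prod.snd this)
    · have := e.injOn hz (x₂ := (_, 1)) ⟨α'.mg h1, pI⟩ (by rw [f2 _ (α'.mg h1), α'.ri _ h1])
      exact Or.inl (congrArg Prod.snd this)
  · rw [e.image_eq, (ρ.trans e').image_eq, ← c5, ← d5]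
    refine Subset.antisymm ?_ ?_
    · rintro x (h | h)
      · refine ⟨Or.inl h, fun h' => h'.2 ?_⟩
        rcases c6.le ⟨h, c7 h'.1⟩ with (h1 | h1) | h1
        exacts [m1 x h1 h'.1 ▸ hp, AG h1, m1' x h1 h'.1 ▸ hp']
      · exact ⟨Or.inr (Or.inl h), fun h' => h'.2 (AG' (d6.le ⟨h, h'.1⟩))⟩
    · rintro x ⟨h | h | h, h'⟩
      · exact Or.inl h
      · exact Or.inr h
      · rcases t0'.ge (not_not.1 fun h2 => h' ⟨h, h2⟩) with h1 | h1
        exacts [Or.inl (c3.subset₁ (Or.inl (Or.inr h1))), Or.inr (d3.subset₁ h1)]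
  · rw [f4, ρ2, ρ1, neg_neg, g3, c2]
  · rw [f3, ρ2, ρ1, g4, t0']

theorem TwoSq.map {S G₁ G₂ B : Set E} {B' : Set F} {h k : ℝ × ℝ → E} (H : TwoSq S G₁ G₂ h k)
    (e : PLEquiv B B') (hS : S ⊆ B) :
    TwoSq (e.f '' S) (e.f '' G₁) (e.f '' G₂) (fun z => e.f (h z)) fun z => e.f (k z) := by
  have m1 : MapsTo h (II ×ˢ II) B := fun z hz => hS (H.im.le (Or.inl ⟨z, hz, rfl⟩))
  have m2 : MapsTo k (II ×ˢ II) B := fun z hz => hS (H.im.le (Or.inr ⟨z, hz, rfl⟩))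
  refine ⟨e.pf.comp H.ph m1, e.pf.comp H.pk m2, e.injOn.comp H.ih m1, e.injOn.comp H.ik m2,
    fun x hx => by rw [H.up x hx], fun x hx => by rw [H.dn x hx],
    fun z hz w hw h => H.fib z hz w hw (e.injOn (m1 hz) (m2 hw) h), ?_, ?_, ?_⟩
  · rw [← H.im, image_union, image_image, image_image]
  · rw [← H.lf, image_union, image_image, image_image]
  · rw [← H.rt, image_union, image_image, image_image]

theorem arc_hz {u v : ℝ} (h : u < v) (c : ℝ) : IsBall 1 (Icc u v ×ˢ {c}) {(u, c), (v, c)} := by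
  have h1 := isBall_segment h.ne
  rw [segment_eq_Icc h.le] at h1
  have := h1.map (hz c (Icc u v)).symm
  rwa [image_pair] at this

theorem twoSq_model {D G : Set (ℝ × ℝ)} (hD : IsBall 2 D G) (hDB : D ⊆ II ×ˢ II)
    (hd : Disjoint D ({-1, 1} ×ˢ II ∪ II ×ˢ {-1, 1})) :
    ∃ h k, TwoSq (II ×ˢ II \ (D \ G)) ({-1, 1} ×ˢ II ∪ II ×ˢ {-1, 1}) G h k := by
  have hO : IsOpen (D \ G) := by
    obtain ⟨e, he⟩ := hD
    rw [diff_eq_image e he]
    exact R105.Iod1_690.isOpen_image_fd (by simp) isOpen_ball (e.pf.1.mono ball_subset_closedBall)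
      (e.injOn.mono ball_subset_closedBall)
  have hs : ∀ w ∈ D \ G, ∃ ε > (0 : ℝ), (w.1 - ε, w.2) ∈ D ∧ (w.1 + ε, w.2) ∈ D := fun w hw => by
    obtain ⟨ε, h0, h1⟩ := Metric.isOpen_iff.1 hO w hw
    refine ⟨ε / 2, half_pos h0, (h1 ?_).1, (h1 ?_).1⟩ <;>
      simp [Prod.dist_eq, abs_of_pos h0, h0]
  obtain ⟨p, hp, h1⟩ := hD.isCompact.exists_isMinOn hD.nonempty continuous_fst.continuousOn
  obtain ⟨p', hp', h2⟩ := hD.isCompact.exists_isMaxOn hD.nonempty continuous_fst.continuousOn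
  have g1 : p ∈ G := not_not.1 fun h => by
    obtain ⟨ε, h0, h3, -⟩ := hs p ⟨hp, h⟩
    have : p.1 ≤ p.1 - ε := h1 h3
    linarith
  have g2 : p' ∈ G := not_not.1 fun h => by
    obtain ⟨ε, h0, -, h3⟩ := hs p' ⟨hp', h⟩
    have : p'.1 + ε ≤ p'.1 := h2 h3
    linarith
  have lt : p.1 < p'.1 := by
    obtain ⟨w, hw⟩ := hD.nonempty_diff
    obtain ⟨ε, h0, h3, h4⟩ := hs w hw
    have a : p.1 ≤ w.1 - ε := h1 h3
    have b : w.1 + ε ≤ p'.1 := h2 h4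
    linarith
  have dd := disjoint_left.1 hd
  have n : ∀ z ∈ D, -1 < z.1 ∧ z.1 < 1 ∧ z.2 ≠ -1 ∧ z.2 ≠ 1 := fun z hz =>
    ⟨(hDB hz).1.1.lt_of_ne fun e => dd hz (Or.inl ⟨Or.inl e.symm, (hDB hz).2⟩),
      (hDB hz).1.2.lt_of_ne fun e => dd hz (Or.inl ⟨Or.inr e, (hDB hz).2⟩),
      fun e => dd hz (Or.inr ⟨(hDB hz).1, Or.inl e⟩), fun e => dd hz (Or.inr ⟨(hDB hz).1, Or.inr e⟩)⟩
  obtain ⟨n1, n2, n3, n4⟩ := n p hp
  obtain ⟨n1', n2', n3', n4'⟩ := n p' hp'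
  obtain ⟨α, a1, a2⟩ := arc_param (arc_hz n1 p.2)
  obtain ⟨α', a1', a2'⟩ := arc_param (pair_comm _ _ ▸ arc_hz n2' p'.2)
  refine twoSq_of_arcs (isBall_I.prod isBall_I) hD hDB hd α α'
    (fun z hz => ⟨⟨hz.1.1, hz.1.2.trans n2.le⟩, hz.2 ▸ (hDB hp).2⟩)
    (fun z hz => ⟨⟨n1'.le.trans hz.1.1, hz.1.2⟩, hz.2 ▸ (hDB hp').2⟩) ?_ ?_ (a2 ▸ g1) (a2' ▸ g2) ?_ ?_
    (disjoint_left.2 fun z hz hz' => absurd (hz'.1.1.trans hz.1.2) lt.not_ge)
  · rw [a2]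
    exact Subset.antisymm (fun z hz => Prod.ext (le_antisymm hz.1.1.2 (h1 hz.2)) hz.1.2)
      (singleton_subset_iff.2 ⟨⟨⟨n1.le, le_rfl⟩, rfl⟩, hp⟩)
  · rw [a2']
    exact Subset.antisymm (fun z hz => Prod.ext (le_antisymm (h2 hz.2) hz.1.1.1) hz.1.2)
      (singleton_subset_iff.2 ⟨⟨⟨le_rfl, n2'.le⟩, rfl⟩, hp'⟩)
  · rw [a1]
    refine Subset.antisymm ?_ (singleton_subset_iff.2
      ⟨⟨⟨le_rfl, n1.le⟩, rfl⟩, Or.inl ⟨Or.inl rfl, (hDB hp).2⟩⟩)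
    rintro z ⟨hz, ⟨h | h, -⟩ | ⟨-, h | h⟩⟩
    · exact Prod.ext h hz.2
    · exact absurd (h.ge.trans hz.1.2) n2.not_ge
    · exact absurd (hz.2.symm.trans h) n3
    · exact absurd (hz.2.symm.trans h) n4
  · rw [a1']
    refine Subset.antisymm ?_ (singleton_subset_iff.2
      ⟨⟨⟨n2'.le, le_rfl⟩, rfl⟩, Or.inl ⟨Or.inr rfl, (hDB hp').2⟩⟩)
    rintro z ⟨hz, ⟨h | h, -⟩ | ⟨-, h | h⟩⟩
    · exact absurd (hz.1.1.trans h.le) n1'.not_ge
    · exact Prod.ext h hz.2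
    · exact absurd (hz.2.symm.trans h) n3'
    · exact absurd (hz.2.symm.trans h) n4'

/-- a disc minus the interior of a disc in its interior -/
theorem twoSq_of_disc {B G₁ D G : Set E} (hB : IsBall 2 B G₁) (hD : IsBall 2 D G) (hDB : D ⊆ B)
    (hd : Disjoint D G₁) : ∃ h k, TwoSq (B \ (D \ G)) G₁ G h k := by
  obtain ⟨e, he, -⟩ := (isBall_I.prod isBall_I).exists_equiv hB
  have hG := hD.subset.trans hDB
  obtain ⟨h, k, H⟩ := twoSq_model (hD.map (e.symm.restrImage hDB))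
    (by rintro _ ⟨x, hx, rfl⟩; exact e.mg (hDB hx)) (disjoint_left.2 (by
      rintro _ ⟨x, hx, rfl⟩ h
      exact disjoint_left.1 hd hx (he.le ⟨_, h, e.ri x (hDB hx)⟩)))
  have := H.map e sdiff_subset
  rw [he, show e.f '' ((e.symm.restrImage hDB).f '' G) = G from image_g e.symm hG rfl] at this
  suffices e1 : e.f '' (II ×ˢ II \ (e.g '' D \ e.g '' G)) = B \ (D \ G) from ⟨_, _, e1 ▸ this⟩
  refine Subset.antisymm ?_ fun x hx => ⟨e.g x, ⟨e.mg hx.1, fun h => hx.2 ?_⟩, e.ri x hx.1⟩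
  · rintro _ ⟨z, hz, rfl⟩
    refine ⟨e.mf hz.1, fun h => hz.2 ⟨⟨_, h.1, e.li z hz.1⟩, ?_⟩⟩
    rintro ⟨x, hx, rfl⟩
    exact h.2 ((e.ri x (hG hx)).symm ▸ hx)
  · obtain ⟨⟨y, hy, e1⟩, h2⟩ := h
    obtain rfl := e.symm.injOn (hDB hy) hx.1 e1
    exact ⟨hy, fun h => h2 ⟨y, h, rfl⟩⟩

end Crest.Agent.X212.Ann83
end

-- ▼ part X212/Ann83/Main

/-!
# X212 / Ann83 (helper83), part 2: the leaves ANNC and ANNF of SURF

* `ann_of_disc`, `annc` : a disc minus a disc, a sphere minus two discs is an annulus;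
* `loop_lift` : two parametrisations of a PL circle differ by a PL homeomorphism of the line;
* `annf` : the boundary parametrisations of an annulus can be prescribed.
-/

set_option autoImplicit false
set_option linter.unusedSectionVars false

open Set Metric Topology

namespace Crest.Agent.X212.Ann83

open Crest.Agent.R096 Crest.Agent.R096.Ce_537 Crest.Agent.R096.Cb_609 Crest.Agent.X212.Srf12
open Crest.Agent.X212.Lad50

variable {E : Type*} [NormedAddCommGroup E] [NormedSpace ℝ E]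

theorem mem_II {x : ℝ} : x ∈ II ↔ |x| ≤ 1 := abs_le.symm

theorem TwoSq.ann {S G₁ G₂ : Set E} {h k : ℝ × ℝ → E} (H : TwoSq S G₁ G₂ h k) :
    ∃ g, Ann S g ∧ g '' {y | y 0 = -1} = G₁ ∧ g '' {y | y 0 = 1} = G₂ := by
  let P : ℤ → ℝ × ℝ → E := fun n => if Even n then h else k
  let τ : ℤ → ℝ → ℝ := fun n s => 4 * s - (2 * n + 1)
  let g : (Fin 2 → ℝ) → E := fun y => P ⌊2 * y 1⌋ (y 0, τ ⌊2 * y 1⌋ (y 1))
  have t1 : ∀ s : ℝ, -1 ≤ τ ⌊2 * s⌋ s ∧ τ ⌊2 * s⌋ s < 1 := fun s =>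
    ⟨by simp only [τ]; linarith [Int.floor_le (2 * s)],
      by simp only [τ]; linarith [Int.lt_floor_add_one (2 * s)]⟩
  have t2 : ∀ s : ℝ, τ ⌊2 * s⌋ s ∈ II := fun s => ⟨(t1 s).1, (t1 s).2.le⟩
  have pe : ∀ {n}, Even n → P n = h := fun hn => if_pos hn
  have po : ∀ {n}, ¬Even n → P n = k := fun hn => if_neg hn
  have key : ∀ (n : ℤ) (y : Fin 2 → ℝ), y 0 ∈ II → n ≤ 2 * y 1 → 2 * y 1 ≤ n + 1 →
      g y = P n (y 0, τ n (y 1)) := fun n y h0 h1 h2 => by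
    rcases h2.lt_or_eq with h2 | h2
    · simp only [g, Int.floor_eq_iff.2 ⟨h1, h2⟩]
    · have e : ⌊2 * y 1⌋ = n + 1 := by rw [h2]; exact_mod_cast Int.floor_intCast (R := ℝ) (n + 1)
      have e1 : τ (n + 1) (y 1) = -1 := by simp only [τ]; push_cast; linarith
      have e2 : τ n (y 1) = 1 := by simp only [τ]; linarith
      simp only [g, e, e1, e2]
      by_cases hn : Even n
      · rw [pe hn, po (Int.even_add_one.not.2 (not_not.2 hn)), H.up _ h0]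
      · rw [po hn, pe (Int.even_add_one.2 hn), H.dn _ h0]
  have im : ∀ s ⊆ II, g '' {y | y 0 ∈ s} = h '' (s ×ˢ II) ∪ k '' (s ×ˢ II) := fun s hs => by
    refine Subset.antisymm ?_ ?_
    · rintro _ ⟨y, hy, rfl⟩
      by_cases hn : Even ⌊2 * y 1⌋
      · exact Or.inl ⟨_, mk_mem_prod hy (t2 _), congrFun (pe hn).symm _⟩
      · exact Or.inr ⟨_, mk_mem_prod hy (t2 _), congrFun (po hn).symm _⟩
    · have a : ∀ (n : ℤ), ∀ z ∈ s ×ˢ II, P n z ∈ g '' {y | y 0 ∈ s} := fun n z hz => by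
        refine ⟨![z.1, (z.2 + (2 * n + 1)) / 4], hz.1, (key n _ (hs hz.1) ?_ ?_).trans ?_⟩
        · show _ ≤ 2 * ((z.2 + (2 * n + 1)) / 4)
          linarith [hz.2.1]
        · show 2 * ((z.2 + (2 * n + 1)) / 4) ≤ _
          linarith [hz.2.2]
        · refine congrArg (P n) (Prod.ext rfl ?_)
          show 4 * ((z.2 + (2 * n + 1)) / 4) - (2 * n + 1) = _
          ring
      rintro _ (⟨z, hz, rfl⟩ | ⟨z, hz, rfl⟩)
      · exact pe Even.zero ▸ a 0 z hz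
      · exact po Int.not_even_one ▸ a 1 z hz
  have fib : ∀ z ∈ II ×ˢ II, ∀ w ∈ II ×ˢ II, z.2 < 1 → w.2 < 1 → h z ≠ k w :=
    fun z hz w hw h1 h2 e => by
      have e1 := (H.fib z hz w hw e).resolve_left h1.ne
      have e2 := H.ik (mk_mem_prod hz.1 pI) hw (by rw [H.dn _ hz.1, ← e1, e])
      exact h2.ne (congrArg Prod.snd e2).symm
  refine ⟨g, ⟨fun R => ?_, ?_, fun y y' h1 h2 => ⟨fun e => ?_, ?_⟩⟩,
    (im {-1} (singleton_subset_iff.2 mI)).trans H.lf, (im {1} (singleton_subset_iff.2 pI)).trans H.rt⟩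
  · refine (plOn_biUnion (K := fun n : ℤ => {y : Fin 2 → ℝ | y 0 ∈ II ∧ n ≤ 2 * y 1 ∧ 2 * y 1 ≤ n + 1})
      _ (finite_Icc ⌊-(2 * R)⌋ ⌊2 * R⌋) (fun n _ => ?_) fun n _ => ?_).mono fun y hy => ?_
    · refine PLOn.congr (PLOn.comp (g := P n) (L := II ×ˢ II) ?_ (pl_prod (pl_coord 0 _)
        (pl_sub (pl_mul 4 (pl_coord 1 _)) (plOn_const (2 * n + 1 : ℝ) _))) fun y hy =>
          ⟨hy.1, by linarith [hy.2.1], by linarith [hy.2.2]⟩) fun y hy => key n y hy.1 hy.2.1 hy.2.2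
      by_cases hn : Even n
      exacts [pe hn ▸ H.ph, po hn ▸ H.pk]
    · exact (isClosed_Icc.preimage (continuous_apply 0)).inter
        (isClosed_Icc.preimage (continuous_const.mul (continuous_apply 1)))
    · have := abs_le.1 hy.2
      exact mem_biUnion (x := ⌊2 * y 1⌋) ⟨Int.floor_mono (by linarith), Int.floor_mono (by linarith)⟩
        ⟨mem_II.2 hy.1, Int.floor_le _, (Int.lt_floor_add_one _).le⟩
  · rw [← H.im, ← im II subset_rfl]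
    simp only [mem_II]
  · have m1 := mk_mem_prod (mem_II.2 h1) (t2 (y 1))
    have m2 := mk_mem_prod (mem_II.2 h2) (t2 (y' 1))
    have fin : (y 0, τ ⌊2 * y 1⌋ (y 1)) = (y' 0, τ ⌊2 * y' 1⌋ (y' 1)) → (Even ⌊2 * y 1⌋ ↔ Even ⌊2 * y' 1⌋) →
        y 0 = y' 0 ∧ ∃ m : ℤ, y 1 - y' 1 = m := fun e1 e2 => by
      obtain ⟨m, hm⟩ := Int.even_sub.2 e2
      have e3 := congrArg Prod.snd e1
      have e4 : ((⌊2 * y 1⌋ : ℝ)) - ⌊2 * y' 1⌋ = m + m := by exact_mod_cast hm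
      exact ⟨congrArg Prod.fst e1, m, by simp only [τ] at e3; linarith⟩
    simp only [g] at e
    by_cases a : Even ⌊2 * y 1⌋ <;> by_cases b : Even ⌊2 * y' 1⌋
    · exact fin (H.ih m1 m2 (by rwa [pe a, pe b] at e)) (iff_of_true a b)
    · exact absurd (by rwa [pe a, po b] at e) (fib _ m1 _ m2 (t1 _).2 (t1 _).2)
    · exact absurd (by rw [po a, pe b] at e; exact e.symm) (fib _ m2 _ m1 (t1 _).2 (t1 _).2)
    · exact fin (H.ik m1 m2 (by rwa [po a, po b] at e)) (iff_of_false a b)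
  · rintro ⟨e0, m, hm⟩
    have e1 : ⌊2 * y 1⌋ = ⌊2 * y' 1⌋ + 2 * m := by
      rw [← Int.floor_add_intCast]
      congr 1
      push_cast
      linarith
    have e2 : τ ⌊2 * y 1⌋ (y 1) = τ ⌊2 * y' 1⌋ (y' 1) := by
      simp only [τ, e1]
      push_cast
      linarith
    have e3 : P ⌊2 * y 1⌋ = P ⌊2 * y' 1⌋ := by simp [P, e1, Int.even_add]
    simp only [g, e0, e2, e3]

/-- a disc minus the interior of a disc in its interior is an annulus -/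
theorem ann_of_disc {B G₁ D G : Set E} (hB : IsBall 2 B G₁) (hD : IsBall 2 D G) (hDB : D ⊆ B)
    (hd : Disjoint D G₁) :
    ∃ g, Ann (B \ (D \ G)) g ∧ g '' {y | y 0 = -1} = G₁ ∧ g '' {y | y 0 = 1} = G := by
  obtain ⟨h, k, H⟩ := twoSq_of_disc hB hD hDB hd
  exact H.ann

/-- the complement of a disc in a sphere -/
theorem compl_disc {X D G : Set E} (hX : Sph X) (hD : IsBall 2 D G) (hs : D ⊆ X) :
    ∃ B, IsBall 2 B G ∧ D ∪ B = X ∧ D ∩ B = G := by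
  obtain ⟨e⟩ := hX
  obtain ⟨B, h1, h2⟩ := exists_compl_disc (isBall_cube 3) (hD.map (e.symm.restrImage hs))
    (by rintro _ ⟨x, hx, rfl⟩; exact e.mg (hs hx))
  have hB : B ⊆ sph 3 := h2 ▸ subset_union_right
  have k1 : ∀ s ⊆ X, e.f '' (e.g '' s) = s := fun s hs => image_g e.symm hs rfl
  refine ⟨e.f '' B, k1 G (hD.subset.trans hs) ▸ h1.ball₂.map (e.restrImage hB), ?_, ?_⟩
  · rw [← k1 D hs, ← image_union]
    exact (congrArg _ h2).trans e.image_eq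
  · rw [← k1 D hs]
    exact (e.injOn.image_inter (subset_union_left.trans h2.le) hB).symm.trans
      ((congrArg _ h1.inter).trans (k1 G (hD.subset.trans hs)))

/-- **ANNC** -/
theorem annc {X D₁ G₁ D₂ G₂ : Set E} (hX : Sph X) (h₁ : IsBall 2 D₁ G₁) (h₂ : IsBall 2 D₂ G₂)
    (s₁ : D₁ ⊆ X) (s₂ : D₂ ⊆ X) (hd : Disjoint D₁ D₂) :
    ∃ g, Ann (X \ ((D₁ \ G₁) ∪ (D₂ \ G₂))) g ∧ g '' {y | y 0 = -1} = G₁ ∧ g '' {y | y 0 = 1} = G₂ := by
  obtain ⟨B, b1, b2, b3⟩ := compl_disc hX h₁ s₁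
  have e : X \ ((D₁ \ G₁) ∪ (D₂ \ G₂)) = B \ (D₂ \ G₂) := by
    rw [← sdiff_sdiff, ← b2, ← b3]
    congr 1
    ext x
    simp only [mem_sdiff, mem_union, mem_inter_iff]
    tauto
  rw [e]
  exact ann_of_disc b1 h₂ (fun x hx => (b2.ge (s₂ hx)).resolve_left (disjoint_right.1 hd hx))
    (hd.symm.mono_right h₁.subset)

/-! ### loops -/

/-- a PL homeomorphism of the line commuting with the unit translation -/
structure Up (φ : ℝ → ℝ) : Prop where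
  pl : ∀ R : ℝ, PLOn φ (Icc (-R) R)
  mono : StrictMono φ
  per : ∀ s, φ (s + 1) = φ s + 1

theorem continuous_of_pl {φ : ℝ → E} (h : ∀ R : ℝ, PLOn φ (Icc (-R) R)) : Continuous φ :=
  continuous_iff_continuousAt.2 fun s => (h (|s| + 1)).1.continuousAt
    (Icc_mem_nhds (by linarith [neg_abs_le s]) (by linarith [le_abs_self s]))

theorem pl_neg_arg {φ : ℝ → E} (h : ∀ R : ℝ, PLOn φ (Icc (-R) R)) (R : ℝ) :
    PLOn (fun s => φ (-s)) (Icc (-R) R) :=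
  (h R).comp (pl_neg (plOn_id _)) fun s hs => ⟨by linarith [hs.2], by linarith [hs.1]⟩

theorem Up.rev {φ : ℝ → ℝ} (h : Up φ) : Up fun s => -φ (-s) :=
  ⟨fun R => pl_neg (pl_neg_arg h.pl R), fun _ _ hs => neg_lt_neg (h.mono (neg_lt_neg hs)), fun s => by
    have := h.per (-(s + 1))
    rw [show -(s + 1) + 1 = -s by ring] at this
    linarith⟩

theorem per_int {φ : ℝ → ℝ} {c : ℝ} (h : ∀ s, φ (s + 1) = φ s + c) (s : ℝ) (n : ℤ) :
    φ (s + n) = φ s + n * c := by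
  have : Function.Periodic (fun s => φ s - s * c) 1 := fun s => by simp only [h]; ring
  have := this.int_mul n s
  simp only [mul_one] at this
  linarith

theorem int_const {f : ℝ → ℝ} (hf : Continuous f) (h : ∀ s, ∃ m : ℤ, f s = m) :
    ∃ m : ℤ, ∀ s, f s = m := by
  obtain ⟨m, hm⟩ := h 0
  refine ⟨m, fun s => hm ▸ isPreconnected_univ.constant_of_mapsTo (T := range ((↑) : ℤ → ℝ))
    (Int.isClosedEmbedding_coe_real.isEmbedding.isInducing.isDiscrete_range) hf.continuousOn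
    (fun s _ => (h s).imp fun _ => Eq.symm) (mem_univ s) (mem_univ 0)⟩

theorem surj_of_per {φ : ℝ → ℝ} (hc : Continuous φ) (h : ∀ s, φ (s + 1) = φ s + 1) :
    Function.Surjective φ := fun v => by
  have h1 := per_int h 0 ⌊v - φ 0⌋
  have h2 := h (0 + ⌊v - φ 0⌋)
  obtain ⟨s, -, e⟩ := intermediate_value_Icc (le_add_of_nonneg_right zero_le_one) hc.continuousOn
    (show v ∈ Icc (φ (0 + ⌊v - φ 0⌋)) (φ (0 + ⌊v - φ 0⌋ + 1)) from
      ⟨by linarith [Int.floor_le (v - φ 0)], by linarith [Int.lt_floor_add_one (v - φ 0)]⟩)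
  exact ⟨s, e⟩

theorem lift_cont {G : Set E} {γ δ : ℝ → E} (h : Loop G γ) (h' : Loop G δ) :
    ∃ (φ : ℝ → ℝ) (m : ℤ), Continuous φ ∧ (∀ s, δ (φ s) = γ s) ∧ ∀ s, φ (s + 1) = φ s + m := by
  have hp : Function.Periodic δ 1 := fun s => (h'.fib _ _).2 ⟨1, by simp⟩
  have hc : Continuous (hp.lift : AddCircle (1 : ℝ) → E) :=
    (QuotientAddGroup.isQuotientMap_mk _).continuous_iff.2 (continuous_of_pl h'.pl)
  have hi : Function.Injective (hp.lift : AddCircle (1 : ℝ) → E) := by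
    rintro ⟨a⟩ ⟨b⟩ e
    obtain ⟨m, hm⟩ := (h'.fib a b).1 e
    exact QuotientAddGroup.eq_iff_sub_mem.2 ⟨m, by simp [hm]⟩
  have hs : ∀ s, ∃ t, δ t = γ s := fun s => (h.img.trans h'.img.symm).le ⟨s, rfl⟩
  choose u hu using hs
  have cu : Continuous fun s => (u s : AddCircle (1 : ℝ)) :=
    (hc.isClosedEmbedding hi).isInducing.continuous_iff.2
      ((continuous_of_pl h.pl).congr fun s => (hu s).symm)
  obtain ⟨φ, ⟨-, h2⟩, -⟩ := (AddCircle.isCoveringMap_coe (1 : ℝ)).existsUnique_continuousMap_lifts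
    ⟨_, cu⟩ 0 (u 0) rfl
  have h3 : ∀ s, δ (φ s) = γ s := fun s => (congrArg hp.lift (congrFun h2 s)).trans (hu s)
  obtain ⟨m, hm⟩ := int_const (f := fun s => φ (s + 1) - φ s) (by fun_prop) fun s =>
    (h'.fib _ _).1 (by rw [h3, h3]; exact (h.fib _ _).2 ⟨1, by simp⟩)
  exact ⟨φ, m, φ.continuous, h3, fun s => by linarith [hm s]⟩

variable [FiniteDimensional ℝ E]

theorem loop_lift {G : Set E} {γ δ : ℝ → E} (h : Loop G γ) (h' : Loop G δ) :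
    ∃ ψ, Up ψ ∧ ((∀ s, δ (ψ s) = γ s) ∨ ∀ s, δ (-ψ s) = γ s) := by
  obtain ⟨φ, m, c1, e1, p1⟩ := lift_cont h h'
  obtain ⟨χ, n, c2, e2, p2⟩ := lift_cont h' h
  obtain ⟨k, hk⟩ := int_const (f := fun s => χ (φ s) - s) (by fun_prop) fun s =>
    (h.fib _ _).1 (by rw [e2, e1])
  have hi : Function.Injective φ := fun s t e => by
    have a := hk s
    have b := hk t
    simp only [e] at a b
    linarith
  have mn : m * n = 1 := by
    have a := hk (0 + 1)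
    have b := hk 0
    simp only [p1, per_int p2] at a b
    exact_mod_cast (by linarith : (m : ℝ) * n = 1)
  have pl : ∀ R : ℝ, PLOn φ (Icc (-R) R) := fun R => by
    refine plOn_of_locPL (locPL_of_nhds fun s _ => ?_) isCompact_Icc (subset_univ _)
    have hJ := isBall_segment (a := φ s - 1 / 4) (b := φ s + 1 / 4) (by linarith)
    rw [segment_eq_Icc (by linarith)] at hJ
    let e := Cx_609.equivOfInjOn (Cx_609.isBall_iff.1 hJ).finConv isClosed_Icc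
      ((h'.pl (|φ s| + 1)).mono (Icc_subset_Icc (by linarith [neg_abs_le (φ s)])
        (by linarith [le_abs_self (φ s)]))) fun a ha b hb e => by
          obtain ⟨j, hj⟩ := (h'.fib a b).1 e
          have : |j| < 1 := by
            have : |(j : ℝ)| < 1 := abs_lt.2 ⟨by linarith [ha.1, hb.2], by linarith [ha.2, hb.1]⟩
            exact_mod_cast this
          rw [Int.abs_lt_one_iff.1 this, Int.cast_zero] at hj
          linarith
    refine ⟨φ ⁻¹' Icc (φ s - 1 / 4) (φ s + 1 / 4) ∩ Icc (-(|s| + 1)) (|s| + 1), Filter.inter_mem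
      (c1.continuousAt (Icc_mem_nhds (by linarith) (by linarith)))
      (Icc_mem_nhds (by linarith [neg_abs_le s]) (by linarith [le_abs_self s])),
      (e.pg.comp ((h.pl _).mono inter_subset_right) fun t ht => ⟨φ t, ht.1, e1 t⟩).congr fun t ht => ?_⟩
    show φ t = e.g (γ t)
    rw [← e1]
    exact (e.li _ ht.1).symm
  have p0 := p1 0
  rcases c1.strictMono_of_inj hi with hm | hm
  · have := hm (show (0 : ℝ) < 0 + 1 by norm_num)
    obtain rfl : m = 1 := (Int.eq_one_or_neg_one_of_mul_eq_one mn).resolve_right fun e => by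
      rw [e] at p0; push_cast at p0; linarith
    exact ⟨φ, ⟨pl, hm, by simpa using p1⟩, Or.inl e1⟩
  · have := hm (show (0 : ℝ) < 0 + 1 by norm_num)
    obtain rfl : m = -1 := (Int.eq_one_or_neg_one_of_mul_eq_one mn).resolve_left fun e => by
      rw [e] at p0; push_cast at p0; linarith
    exact ⟨fun s => -φ s, ⟨fun R => pl_neg (pl R), hm.neg, fun s => by rw [p1]; push_cast; ring⟩,
      Or.inr fun s => by rw [neg_neg, e1]⟩

omit [FiniteDimensional ℝ E] in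
theorem ann_loop {S : Set E} {g : (Fin 2 → ℝ) → E} (h : Ann S g) {c : ℝ} (hc : |c| ≤ 1) :
    Loop (g '' {y | y 0 = c}) fun s => g ![c, s] := by
  refine ⟨fun R => (h.pl R).comp (pl_vec2 (plOn_const c _) (plOn_id _)) fun s hs => ⟨hc, abs_le.2 hs⟩,
    Subset.antisymm ?_ ?_, fun s t => (h.fib _ _ hc hc).trans (and_iff_right rfl)⟩
  · rintro _ ⟨s, rfl⟩
    exact ⟨_, rfl, rfl⟩
  · rintro _ ⟨y, rfl, rfl⟩
    exact ⟨y 1, congrArg g (by ext i; fin_cases i <;> rfl)⟩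

omit [FiniteDimensional ℝ E] in
/-- reparametrisation of an annulus along the circles -/
theorem ann_comp {S : Set E} {g : (Fin 2 → ℝ) → E} (h : Ann S g) {ψ : (Fin 2 → ℝ) → ℝ}
    (pl : ∀ R : ℝ, PLOn ψ (closedBall 0 R)) (hs : ∀ t, Function.Surjective fun s => ψ ![t, s])
    (fib : ∀ t s s', (∃ m : ℤ, ψ ![t, s] - ψ ![t, s'] = m) ↔ ∃ m : ℤ, s - s' = m) :
    Ann S fun y => g ![y 0, ψ y] := by
  have eta : ∀ y : Fin 2 → ℝ, ![y 0, y 1] = y := fun y => by ext i; fin_cases i <;> rfl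
  refine ⟨fun R => ?_, h.img ▸ Subset.antisymm ?_ ?_, fun y y' h1 h2 =>
    (h.fib ![y 0, ψ y] ![y' 0, ψ y'] h1 h2).trans
    (and_congr_right fun e : y 0 = y' 0 => ?_)⟩
  · obtain ⟨C, hC⟩ := (isCompact_closedBall _ _).exists_bound_of_continuousOn (pl (max 1 R)).1
    have hs : {y : Fin 2 → ℝ | |y 0| ≤ 1 ∧ |y 1| ≤ R} ⊆ closedBall 0 (max 1 R) := fun y hy => by
      rw [mem_closedBall_zero_iff, pi_norm_le_iff_of_nonneg (by positivity)]
      intro i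
      fin_cases i
      exacts [hy.1.trans (le_max_left _ _), hy.2.trans (le_max_right _ _)]
    exact (h.pl C).comp (pl_vec2 (pl_coord 0 _) ((pl _).mono hs)) fun y hy => ⟨hy.1, hC y (hs hy)⟩
  · rintro _ ⟨y, hy, rfl⟩
    exact ⟨![y 0, ψ y], hy, rfl⟩
  · rintro _ ⟨y, hy, rfl⟩
    obtain ⟨s, e⟩ := hs (y 0) (y 1)
    exact ⟨![y 0, s], hy, congrArg g ((congrArg (fun v => ![y 0, v]) e).trans (eta y))⟩
  · have := fib (y 0) (y 1) (y' 1)
    rwa [eta, e, eta] at this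

omit [FiniteDimensional ℝ E] in
theorem ann_flip {S : Set E} {g : (Fin 2 → ℝ) → E} (h : Ann S g) : Ann S fun y => g ![y 0, -y 1] :=
  ann_comp h (fun _ => pl_neg (pl_coord 1 _)) (fun _ => neg_surjective) fun _ s s' =>
    ⟨fun ⟨m, hm⟩ => ⟨-m, by simp at hm ⊢; linarith⟩, fun ⟨m, hm⟩ => ⟨-m, by simp; linarith⟩⟩

omit [FiniteDimensional ℝ E] in
theorem ann_up {S : Set E} {g : (Fin 2 → ℝ) → E} (h : Ann S g) {φ χ : ℝ → ℝ} (hφ : Up φ) (hχ : Up χ) :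
    ∃ g', Ann S g' ∧ (∀ s, g' ![-1, s] = g ![-1, φ s]) ∧ ∀ s, g' ![1, s] = g ![1, χ s] := by
  have c1 := continuous_of_pl hφ.pl
  have c2 := continuous_of_pl hχ.pl
  obtain ⟨C, hC⟩ := (Function.Periodic.isBounded_of_continuous (f := fun s => φ s - χ s) (c := 1)
    (fun s => by simp only [hφ.per, hχ.per]; ring) one_ne_zero (c1.sub c2)).exists_norm_le
  have hC' : ∀ s, |φ s - χ s| ≤ C := fun s => hC _ ⟨s, rfl⟩
  let ω : ℝ → ℝ → ℝ := fun t s => max (min (χ s) (φ s + C * (t + 1))) (φ s - C * (t + 1))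
  have m : ∀ t, StrictMono (ω t) := fun t a b hab =>
    max_lt_max (min_lt_min (hχ.mono hab) (by linarith [hφ.mono hab])) (by linarith [hφ.mono hab])
  have p : ∀ t s, ω t (s + 1) = ω t s + 1 := fun t s => by
    simp only [ω, hφ.per, hχ.per, ← max_add_add_right, ← min_add_add_right]
    congr 2 <;> ring
  have q : ∀ {θ : ℝ → ℝ}, Up θ → ∀ R : ℝ, PLOn (fun y : Fin 2 → ℝ => θ (y 1)) (closedBall 0 R) :=
    fun h R => (h.pl R).comp (pl_coord 1 _) fun y hy =>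
      abs_le.1 ((norm_le_pi_norm y 1).trans (mem_closedBall_zero_iff.1 hy))
  have r : ∀ K, PLOn (fun y : Fin 2 → ℝ => C * (y 0 + 1)) K := fun K =>
    pl_mul C (pl_add (pl_coord 0 _) (plOn_const 1 _))
  refine ⟨_, ann_comp h (ψ := fun y => ω (y 0) (y 1)) (fun R => pl_max (pl_min (q hχ R)
    (pl_add (q hφ R) (r _))) (pl_sub (q hφ R) (r _))) (fun t => surj_of_per (φ := ω t) (by fun_prop) (p t))
    fun t s s' => exists_congr fun k => ?_, fun s => ?_, fun s => ?_⟩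
  · have := per_int (p t) s' k
    show ω t s - ω t s' = k ↔ _
    rw [sub_eq_iff_eq_add', sub_eq_iff_eq_add', ← mul_one (k : ℝ), ← this, (m t).injective.eq_iff, mul_one]
  · refine congrArg (fun v => g ![-1, v]) ?_
    show ω (-1) s = φ s
    simp [ω]
  · refine congrArg (fun v => g ![1, v]) ?_
    have := abs_le.1 (hC' s)
    have h0 := (abs_nonneg _).trans (hC' s)
    show max (min (χ s) (φ s + C * (1 + 1))) (φ s - C * (1 + 1)) = χ s
    rw [min_eq_left (by linarith), max_eq_left (by linarith)]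

/-- **ANNF** -/
theorem annf {S G₁ G₂ : Set E} {g : (Fin 2 → ℝ) → E} {γ₁ γ₂ : ℝ → E} (h : Ann S g) (h₁ : Loop G₁ γ₁)
    (h₂ : Loop G₂ γ₂) (e₁ : g '' {y | y 0 = -1} = G₁) (e₂ : g '' {y | y 0 = 1} = G₂) :
    ∃ g', Ann S g' ∧ (∀ s, g' ![-1, s] = γ₁ s) ∧
      ((∀ s, g' ![1, s] = γ₂ s) ∨ ∀ s, g' ![1, s] = γ₂ (-s)) := by
  obtain ⟨φ, u1, a⟩ := loop_lift h₁ (e₁ ▸ ann_loop h (by simp))
  obtain ⟨χ, u2, b⟩ := loop_lift h₂ (e₂ ▸ ann_loop h (by simp))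
  rcases a with a | a <;> rcases b with b | b
  · obtain ⟨g', k1, k2, k3⟩ := ann_up h u1 u2
    exact ⟨g', k1, fun s => (k2 s).trans (a s), Or.inl fun s => (k3 s).trans (b s)⟩
  · obtain ⟨g', k1, k2, k3⟩ := ann_up h u1 u2.rev
    exact ⟨g', k1, fun s => (k2 s).trans (a s), Or.inr fun s => (k3 s).trans (b (-s))⟩
  · obtain ⟨g', k1, k2, k3⟩ := ann_up (ann_flip h) u1 u2.rev
    exact ⟨g', k1, fun s => (k2 s).trans (a s), Or.inr fun s => (k3 s).trans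
      ((congrArg (fun v => g ![1, v]) (neg_neg _)).trans (b (-s)))⟩
  · obtain ⟨g', k1, k2, k3⟩ := ann_up (ann_flip h) u1 u2
    exact ⟨g', k1, fun s => (k2 s).trans (a s), Or.inl fun s => (k3 s).trans (b s)⟩

end Crest.Agent.X212.Ann83
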